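import Vale.Agent.Lib.P054.Gen8

/-!
In every dimension `d ≥ 3`, every pin of a finite set with small doubling sees at least a constant
times `n ^ (2 / d)` distances, with a loss polynomial in the doubling constant.
-/

open scoped Pointwise
open Finset

namespace Vale.Agent.Results.P054.EveryPinSmallDoublingAllD

/-- For every `d ≥ 3` there are constants `C` and `E` such that for every finite set `P` in
`d`-dimensional Euclidean space with `n ≥ 2` points and every `x ∈ P`, writing `D` for the number
of distinct distances from `x` to the other points of `P`, and `K = |P + P| / n`: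
`n ^ 2 ≤ C * K ^ E * D ^ d`. -/
theorem result (d : ℕ) (hd : 3 ≤ d) [DecidableEq (EuclideanSpace ℝ (Fin d))] :
    ∃ C E : ℕ, ∀ (P : Finset (EuclideanSpace ℝ (Fin d))) (x : EuclideanSpace ℝ (Fin d)),
      x ∈ P → 2 ≤ P.card →
      (P.card : ℝ) ^ 2 ≤ C * (((P + P).card : ℝ) / (P.card : ℝ)) ^ E *
        (((P.erase x).image (fun y => dist y x)).card : ℝ) ^ d := by
  classical
  obtain ⟨C, E, h⟩ := Vale.Agent.Lib.P054.norms_all d hd
  refine ⟨C * 2 ^ d, E, fun P x hx hP => ?_⟩
  set A : Finset (EuclideanSpace ℝ (Fin d)) := P.image (fun y => y - x) with hA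
  have hinj : Function.Injective (fun y : EuclideanSpace ℝ (Fin d) => y - x) :=
    sub_left_injective
  have hcard : A.card = P.card := card_image_of_injective _ hinj
  have hsum : (A + A).card = (P + P).card := by
    have h1 : A + A = (P + P).image (fun y => y - (x + x)) := by
      ext z
      simp only [hA, mem_add, mem_image]
      constructor
      · rintro ⟨_, ⟨a, ha, rfl⟩, _, ⟨b, hb, rfl⟩, rfl⟩
        exact ⟨a + b, ⟨a, ha, b, hb, rfl⟩, by abel⟩
      · rintro ⟨_, ⟨a, ha, b, hb, rfl⟩, rfl⟩
        exact ⟨a - x, ⟨a, ha, rfl⟩, b - x, ⟨b, hb, rfl⟩, by abel⟩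
    rw [h1]
    exact card_image_of_injective _ sub_left_injective
  have hAne : A.Nonempty := by
    rw [← card_pos, hcard]; omega
  have hmain := h A hAne
  rw [hcard, hsum] at hmain
  set D := (P.erase x).image (fun y => dist y x) with hD
  have hsub : A.image norm ⊆ insert 0 D := by
    intro r hr
    obtain ⟨a, ha, rfl⟩ := mem_image.1 hr
    obtain ⟨y, hy, rfl⟩ := mem_image.1 ha
    by_cases hyx : y = x
    · subst hyx
      simp
    · apply mem_insert_of_mem
      exact mem_image.2 ⟨y, mem_erase.2 ⟨hyx, hy⟩, by rw [dist_eq_norm]⟩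
  have hDpos : 1 ≤ D.card := by
    rw [Nat.one_le_iff_ne_zero, Nat.ne_zero_iff_zero_lt, card_pos, hD, image_nonempty]
    rw [← card_pos, card_erase_of_mem hx]
    omega
  have hnu : ((A.image norm).card : ℝ) ≤ 2 * (D.card : ℝ) := by
    have h1 : (A.image norm).card ≤ D.card + 1 :=
      (card_le_card hsub).trans (card_insert_le _ _)
    have h2 : (A.image norm).card ≤ 2 * D.card := by omega
    exact_mod_cast h2
  have hnud : ((A.image norm).card : ℝ) ^ d ≤ 2 ^ d * (D.card : ℝ) ^ d := by
    calc ((A.image norm).card : ℝ) ^ d ≤ (2 * (D.card : ℝ)) ^ d := by gcongr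
      _ = _ := by rw [mul_pow]
  have hK : (0 : ℝ) ≤ (C : ℝ) * (((P + P).card : ℝ) / (P.card : ℝ)) ^ E := by positivity
  calc (P.card : ℝ) ^ 2 ≤ _ := hmain
    _ ≤ (C : ℝ) * (((P + P).card : ℝ) / (P.card : ℝ)) ^ E * (2 ^ d * (D.card : ℝ) ^ d) :=
        mul_le_mul_of_nonneg_left hnud hK
    _ = _ := by push_cast; ring

end Vale.Agent.Results.P054.EveryPinSmallDoublingAllD
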