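import Vale.Agent.Lib.P054.Space3

/-!
Every pin of a set in three-space with small doubling sees at least a constant times
`n ^ (2 / 3)` distances, with a loss polynomial in the doubling constant.
-/

open scoped Pointwise
open Finset

namespace Vale.Agent.Results.P054.EveryPinSmallDoublingR3

/-- For a finite set `P` in three-dimensional Euclidean space with `n ≥ 2` points and every
`x ∈ P`, writing `D` for the number of distinct distances from `x` to the other points of `P`:
`n ^ 38 ≤ 8 * 10 ^ 14 * D ^ 3 * |P + P| ^ 36`. -/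
theorem result [DecidableEq (EuclideanSpace ℝ (Fin 3))]
    (P : Finset (EuclideanSpace ℝ (Fin 3))) (hP : 2 ≤ P.card)
    (x : EuclideanSpace ℝ (Fin 3)) (hx : x ∈ P) :
    (P.card : ℝ) ^ 38 ≤
      8 * 10 ^ 14 * (((P.erase x).image (fun y => dist y x)).card : ℝ) ^ 3 *
        ((P + P).card : ℝ) ^ 36 := by
  classical
  set A : Finset (EuclideanSpace ℝ (Fin 3)) := P.image (fun y => y - x) with hA
  have hinj : Function.Injective (fun y : EuclideanSpace ℝ (Fin 3) => y - x) :=
    sub_left_injective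
  have hcard : A.card = P.card := card_image_of_injective _ hinj
  have hsum : (A + A).card = (P + P).card := by
    have h1 : A + A = (P + P).image (fun y => y - (x + x)) := by
      ext z
      simp only [hA, mem_add, mem_image]
      constructor
      · rintro ⟨_, ⟨a, ha, rfl⟩, _, ⟨b, hb, rfl⟩, rfl⟩
        exact ⟨a + b, ⟨a, ha, b, hb, rfl⟩, by abel⟩
      · rintro ⟨_, ⟨a, ha, b, hb, rfl⟩, rfl⟩
        exact ⟨a - x, ⟨a, ha, rfl⟩, b - x, ⟨b, hb, rfl⟩, by abel⟩
    rw [h1]
    exact card_image_of_injective _ sub_left_injective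
  have hAne : A.Nonempty := by
    rw [← card_pos, hcard]; omega
  have hmain := Vale.Agent.Lib.P054.space_norms A hAne
  rw [hcard, hsum] at hmain
  set D := (P.erase x).image (fun y => dist y x) with hD
  have hsub : A.image norm ⊆ insert 0 D := by
    intro r hr
    obtain ⟨a, ha, rfl⟩ := mem_image.1 hr
    obtain ⟨y, hy, rfl⟩ := mem_image.1 ha
    by_cases hyx : y = x
    · subst hyx
      simp
    · apply mem_insert_of_mem
      exact mem_image.2 ⟨y, mem_erase.2 ⟨hyx, hy⟩, by rw [dist_eq_norm]⟩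
  have hDpos : 1 ≤ D.card := by
    rw [Nat.one_le_iff_ne_zero, Nat.ne_zero_iff_zero_lt, card_pos, hD, image_nonempty]
    rw [← card_pos, card_erase_of_mem hx]
    omega
  have hnu : ((A.image norm).card : ℝ) ≤ 2 * (D.card : ℝ) := by
    have h1 : (A.image norm).card ≤ D.card + 1 :=
      (card_le_card hsub).trans (card_insert_le _ _)
    have h2 : (A.image norm).card ≤ 2 * D.card := by omega
    exact_mod_cast h2
  have hn0 : (0 : ℝ) < P.card := by
    have : 0 < P.card := by omega
    exact_mod_cast this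
  have hnu3 : ((A.image norm).card : ℝ) ^ 3 ≤ 8 * (D.card : ℝ) ^ 3 := by
    calc ((A.image norm).card : ℝ) ^ 3 ≤ (2 * (D.card : ℝ)) ^ 3 := by gcongr
      _ = _ := by ring
  have hK : (0 : ℝ) ≤ (((P + P).card : ℝ) / (P.card : ℝ)) ^ 36 := by positivity
  have h1 : (P.card : ℝ) ^ 2 ≤ 10 ^ 14 * (8 * (D.card : ℝ) ^ 3) *
      (((P + P).card : ℝ) / (P.card : ℝ)) ^ 36 := by
    refine hmain.trans ?_
    gcongr
  have h2 := mul_le_mul_of_nonneg_right h1 (by positivity : (0 : ℝ) ≤ (P.card : ℝ) ^ 36)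
  have h3 : (P.card : ℝ) ^ 2 * (P.card : ℝ) ^ 36 = (P.card : ℝ) ^ 38 := by ring
  have h4 : 10 ^ 14 * (8 * (D.card : ℝ) ^ 3) * (((P + P).card : ℝ) / (P.card : ℝ)) ^ 36 *
      (P.card : ℝ) ^ 36 = 8 * 10 ^ 14 * (D.card : ℝ) ^ 3 * ((P + P).card : ℝ) ^ 36 := by
    rw [div_pow]
    field_simp
  rw [h3, h4] at h2
  exact h2

end Vale.Agent.Results.P054.EveryPinSmallDoublingR3
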